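import Crest.Agent.R339.Api.A7

/-! # Row 339: operator API, see `R339/Api/A0.lean` … `A7.lean` -/
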