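import Crest.Agent.R339.Api.B5

/-! # Row 339: API of the labelled models, see `R339/Api/B1.lean` … `B5.lean` -/
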